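import Crest.Agent.N250.HJ.Defs
import Crest.Agent.N250.HJ.Der

-- ▼ part N250/HJ/Bd
section

/-! # Row 250, end action: real estimates for the truncated series -/

namespace Crest.Agent.N250.HJ

open Finset

lemma geo2 (n : ℕ) : ∑ i ∈ range n, ((i : ℝ) + 1) ^ 2 * (11 / 14) ^ i ≤ 182 := by
  have h : ∀ n : ℕ, ∑ i ∈ range n, ((i : ℝ) + 1) ^ 2 * (11 / 14) ^ i +
      (11 / 14 : ℝ) ^ n * (14 / 3 * (n : ℝ) ^ 2 + 392 / 9 * n + 4900 / 27) = 4900 / 27 := by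
    intro n
    induction n with
    | zero => simp
    | succ n ih => rw [sum_range_succ, pow_succ (11 / 14 : ℝ) n]; push_cast; linear_combination ih
  have h1 := h n
  have h2 : 0 ≤ (11 / 14 : ℝ) ^ n * (14 / 3 * (n : ℝ) ^ 2 + 392 / 9 * n + 4900 / 27) := by
    positivity
  linarith

/-- `ρ^k 11^k k! ≤ (11 (k+1) / (14 M))^k` -/
lemma pow_fact_le {M : ℝ} (hM : 0 < M) {ρ : ℝ} (h0 : 0 ≤ ρ) (h : ρ ≤ 1 / (7 * M)) (k : ℕ) :
    ρ ^ k * (11 ^ k * k.factorial) ≤ (11 / 14) ^ k * (((k : ℝ) + 1) / M) ^ k := by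
  have h1 := two_pow_fact_le k
  have h2 : ρ ^ k ≤ (1 / (7 * M)) ^ k := pow_le_pow_left₀ h0 h k
  have h3 : (11 / 14 : ℝ) ^ k * (((k : ℝ) + 1) / M) ^ k * 2 ^ k =
      (1 / (7 * M)) ^ k * 11 ^ k * ((k : ℝ) + 1) ^ k := by
    rw [← mul_pow, ← mul_pow, ← mul_pow, ← mul_pow]; congr 1; field_simp; ring
  have h4 : (0 : ℝ) < 2 ^ k := by positivity
  refine le_of_mul_le_mul_right ?_ h4
  rw [h3]
  calc ρ ^ k * (11 ^ k * k.factorial) * 2 ^ k = ρ ^ k * 11 ^ k * (2 ^ k * k.factorial) := by ring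
    _ ≤ _ := by gcongr

lemma a_term {M ρ : ℝ} (hM : 0 < M) (h0 : 0 ≤ ρ) (h : ρ ≤ 1 / (7 * M)) {k : ℕ}
    (hk : (k : ℝ) + 1 ≤ M) : a (k + 1) * ρ ^ (k + 1) ≤ 2 * ρ * (11 / 14) ^ k := by
  have h1 := pow_fact_le hM h0 h k
  have h2 : (((k : ℝ) + 1) / M) ^ k ≤ 1 :=
    pow_le_one₀ (by positivity) ((div_le_one hM).2 hk)
  have h3 : (11 / 14 : ℝ) ^ k * (((k : ℝ) + 1) / M) ^ k ≤ (11 / 14) ^ k :=
    mul_le_of_le_one_right (by positivity) h2
  calc a (k + 1) * ρ ^ (k + 1) ≤ (2 * 11 ^ k * k.factorial) * ρ ^ (k + 1) := by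
        gcongr; exact a_le k
    _ = 2 * ρ * (ρ ^ k * (11 ^ k * k.factorial)) := by ring
    _ ≤ _ := by gcongr; exact h1.trans h3

lemma c_term {M ρ : ℝ} (hM : 0 < M) (h0 : 0 ≤ ρ) (h : ρ ≤ 1 / (7 * M)) {k : ℕ}
    (hk : (k : ℝ) + 1 ≤ M) :
    c (k + 1) * ρ ^ (k + 1) ≤ 4 * ρ * (((k : ℝ) + 1) ^ 2 * (11 / 14) ^ k) := by
  have h1 := a_term hM h0 h hk
  have h3 : c (k + 1) = (2 * k + 1) * a (k + 1) := by simp only [c]; push_cast; ring
  have h4 : (0 : ℝ) ≤ k := by positivity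
  have h5 : (0 : ℝ) ≤ ρ * (11 / 14) ^ k := by positivity
  rw [h3]
  calc (2 * k + 1) * a (k + 1) * ρ ^ (k + 1) = (2 * k + 1) * (a (k + 1) * ρ ^ (k + 1)) := by ring
    _ ≤ (2 * k + 1) * (2 * ρ * (11 / 14) ^ k) := by gcongr
    _ ≤ _ := by nlinarith [mul_nonneg h5 h4, mul_nonneg h5 (mul_nonneg h4 h4)]

lemma sum_c_le {N : ℕ} {ρ : ℝ} (h0 : 0 ≤ ρ) (h : ρ ≤ 1 / (7 * ((N : ℝ) + 1))) :
    ∑ k ∈ range N, c (k + 1) * ρ ^ (k + 1) ≤ 728 * ρ := by
  calc ∑ k ∈ range N, c (k + 1) * ρ ^ (k + 1)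
      ≤ ∑ k ∈ range N, 4 * ρ * (((k : ℝ) + 1) ^ 2 * (11 / 14) ^ k) := by
        refine sum_le_sum fun k hk => c_term (by positivity) h0 h ?_
        have : (k : ℝ) ≤ N := by exact_mod_cast (mem_range.1 hk).le
        linarith
    _ = 4 * ρ * ∑ k ∈ range N, (((k : ℝ) + 1) ^ 2 * (11 / 14) ^ k) := by rw [mul_sum]
    _ ≤ 4 * ρ * 182 := by gcongr; exact geo2 N
    _ = _ := by ring

lemma norm_eN_le {N : ℕ} {w : ℂ} (h : ‖w‖ ≤ 1 / (7 * ((N : ℝ) + 1))) :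
    ‖eN N w‖ ≤ 728 * ‖w‖ := by
  refine le_trans ?_ (sum_c_le (norm_nonneg w) h)
  refine (norm_sum_le _ _).trans (sum_le_sum fun k _ => ?_)
  rw [norm_mul, norm_pow, Complex.norm_real, Real.norm_of_nonneg (a_pos _ (by omega)).le]
  gcongr
  exact a_le_c (by omega)

lemma norm_cN_le {N : ℕ} {w : ℂ} (h : ‖w‖ ≤ 1 / (7 * ((N : ℝ) + 1))) :
    ‖cN N w - 1‖ ≤ 728 * ‖w‖ := by
  refine le_trans ?_ (sum_c_le (norm_nonneg w) h)
  have : cN N w - 1 = ∑ k ∈ range N, (c (k + 1) : ℂ) * w ^ (k + 1) := by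
    unfold cN; rw [sum_range_succ']; simp [c_zero]
  rw [this]
  refine (norm_sum_le _ _).trans (sum_le_sum fun k _ => ?_)
  rw [norm_mul, norm_pow, Complex.norm_real, Real.norm_of_nonneg (c_pos _).le]

/-- `t_j ≤ (7/4)^d t_{j+d}` in the upper half -/
lemma t_up {M : ℕ} (hM : 0 < M) (j : ℕ) (hj : M ≤ 2 * j) (d : ℕ) :
    c j * (1 / (7 * (M : ℝ))) ^ j ≤ 2 ^ d * (7 / 8) ^ d * (c (j + d) * (1 / (7 * (M : ℝ))) ^ (j + d)) := by
  induction d with
  | zero => simp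
  | succ d ih =>
    have hM' : (0 : ℝ) < M := by exact_mod_cast hM
    have h1 := c_ratio (k := j + d) (by omega)
    have h2 : (4 : ℝ) * M ≤ 8 * ((j + d : ℕ) : ℝ) + 4 := by
      have : ((M : ℕ) : ℝ) ≤ ((2 * j : ℕ) : ℝ) := by exact_mod_cast hj
      push_cast at this ⊢
      have : (0 : ℝ) ≤ d := by positivity
      linarith
    have h3 : 4 * M * c (j + d) ≤ c (j + d + 1) :=
      le_trans (mul_le_mul_of_nonneg_right h2 (c_pos _).le) h1
    have h4 : c (j + d) ≤ 2 * (7 / 8) * (c (j + d + 1) * (1 / (7 * (M : ℝ)))) := by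
      rw [show 2 * (7 / 8) * (c (j + d + 1) * (1 / (7 * (M : ℝ)))) = c (j + d + 1) / (4 * M) by
        field_simp; ring, le_div_iff₀ (by positivity)]
      linarith
    refine ih.trans ?_
    rw [← add_assoc, pow_succ, pow_succ, pow_succ]
    have h5 : (0 : ℝ) ≤ 2 ^ d * (7 / 8) ^ d * (1 / (7 * (M : ℝ))) ^ (j + d) := by positivity
    calc 2 ^ d * (7 / 8) ^ d * (c (j + d) * (1 / (7 * (M : ℝ))) ^ (j + d))
        = (2 ^ d * (7 / 8) ^ d * (1 / (7 * (M : ℝ))) ^ (j + d)) * c (j + d) := by ring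
      _ ≤ (2 ^ d * (7 / 8) ^ d * (1 / (7 * (M : ℝ))) ^ (j + d)) *
          (2 * (7 / 8) * (c (j + d + 1) * (1 / (7 * (M : ℝ))))) := by gcongr
      _ = _ := by ring

lemma two_pow_le {n m : ℕ} (hn : 0 < n) (h : m ≤ n) :
    (2 : ℝ) ^ m * (n : ℝ) ^ n ≤ ((n : ℝ) + m) ^ n := by
  have hn' : (0 : ℝ) < n := by exact_mod_cast hn
  have h1 : (1 + 1 : ℝ) ^ ((m : ℝ) / n) ≤ 1 + (m : ℝ) / n * 1 :=
    rpow_one_add_le_one_add_mul_self (by norm_num) (by positivity)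
      ((div_le_one hn').2 (by exact_mod_cast h))
  have h2 : ((1 + 1 : ℝ) ^ ((m : ℝ) / n)) ^ n = 2 ^ m := by
    rw [← Real.rpow_natCast, ← Real.rpow_mul (by norm_num), div_mul_cancel₀ _ hn'.ne',
      Real.rpow_natCast]; norm_num
  have h3 : ((n : ℝ) + m) ^ n = (1 + (m : ℝ) / n * 1) ^ n * (n : ℝ) ^ n := by
    rw [← mul_pow]; congr 1; field_simp
  rw [h3, ← h2]
  gcongr

lemma t_le {M : ℕ} (hM : 0 < M) (i : ℕ) (hi : 1 ≤ i) :
    c i * (1 / (7 * (M : ℝ))) ^ i ≤ 4 / 11 * ((11 / 14) ^ i * (((i : ℝ) + 1) / M) ^ i) := by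
  obtain ⟨k, rfl⟩ : ∃ k, i = k + 1 := ⟨i - 1, by omega⟩
  have hM' : (0 : ℝ) < M := by exact_mod_cast hM
  have h1 := pow_fact_le hM' (ρ := 1 / (7 * (M : ℝ))) (by positivity) le_rfl (k + 1)
  calc c (k + 1) * (1 / (7 * (M : ℝ))) ^ (k + 1)
      ≤ (4 * 11 ^ k * (k + 1).factorial) * (1 / (7 * (M : ℝ))) ^ (k + 1) := by
        gcongr; exact c_le k
    _ = 4 / 11 * ((1 / (7 * (M : ℝ))) ^ (k + 1) * (11 ^ (k + 1) * (k + 1).factorial)) := by
        rw [pow_succ (11 : ℝ) k]; ring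
    _ ≤ _ := by gcongr

/-- the pair estimate -/
lemma pair_le {N i j : ℕ} (hij : i ≤ j) (hj : j ≤ N) (h : N + 1 ≤ i + j) :
    (c i * (1 / (7 * ((N : ℝ) + 1))) ^ i) * (c j * (1 / (7 * ((N : ℝ) + 1))) ^ j) ≤
      2 / ((N : ℝ) + 1) * (((i : ℝ) + 1) * (11 / 14) ^ i) *
        (c N * (1 / (7 * ((N : ℝ) + 1))) ^ N) := by
  obtain ⟨d, rfl⟩ : ∃ d, N = j + d := ⟨N - j, by omega⟩
  have hM : 0 < j + d + 1 := by omega
  have h1 := t_up hM j (by omega) d
  have h2 := t_le hM i (by omega)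
  have e : ((j + d + 1 : ℕ) : ℝ) = ((j + d : ℕ) : ℝ) + 1 := by push_cast; ring
  rw [e] at h1 h2
  set M : ℝ := ((j + d : ℕ) : ℝ) + 1 with hMdef
  have hM' : 0 < M := by positivity
  set T := c (j + d) * (1 / (7 * M)) ^ (j + d) with hT
  have hT0 : 0 ≤ T := mul_nonneg (c_pos _).le (by positivity)
  have key : (((i : ℝ) + 1) / M) ^ i * (2 ^ d * (7 / 8) ^ d) ≤ 4 * (((i : ℝ) + 1) / M) := by
    by_cases hA : 2 * (i + 1) ≤ j + d + 1
    · obtain ⟨k, rfl⟩ : ∃ k, i = k + 1 := ⟨i - 1, by omega⟩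
      have hz : (((k + 1 : ℕ) : ℝ) + 1) / M ≤ 1 / 2 := by
        rw [div_le_div_iff₀ hM' two_pos]
        have : ((2 * (k + 1 + 1) : ℕ) : ℝ) ≤ ((j + d + 1 : ℕ) : ℝ) := by exact_mod_cast hA
        rw [e] at this
        push_cast at this ⊢
        linarith
      have hz0 : 0 ≤ (((k + 1 : ℕ) : ℝ) + 1) / M := by positivity
      have h3 : (2 : ℝ) ^ d * (7 / 8) ^ d ≤ 2 ^ k := by
        calc (2 : ℝ) ^ d * (7 / 8) ^ d ≤ 2 ^ d * 1 := by
              gcongr; exact pow_le_one₀ (by norm_num) (by norm_num)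
          _ ≤ 2 ^ k := by
              rw [mul_one]; exact pow_le_pow_right₀ (by norm_num) (by omega)
      have h4 : ((((k + 1 : ℕ) : ℝ) + 1) / M) ^ k * 2 ^ k ≤ 1 := by
        rw [← mul_pow]; exact pow_le_one₀ (by positivity) (by linarith)
      calc ((((k + 1 : ℕ) : ℝ) + 1) / M) ^ (k + 1) * (2 ^ d * (7 / 8) ^ d)
          ≤ ((((k + 1 : ℕ) : ℝ) + 1) / M) ^ (k + 1) * 2 ^ k := by gcongr
        _ = ((((k + 1 : ℕ) : ℝ) + 1) / M) * (((((k + 1 : ℕ) : ℝ) + 1) / M) ^ k * 2 ^ k) := by ring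
        _ ≤ ((((k + 1 : ℕ) : ℝ) + 1) / M) * 1 := by gcongr
        _ ≤ _ := by linarith
    · obtain ⟨m, hm⟩ : ∃ m, j + d + 1 = (i + 1) + m := ⟨j + d - i, by omega⟩
      have h3 := two_pow_le (n := i + 1) (m := m) (by omega) (by omega)
      have hMm : M = ((i + 1 : ℕ) : ℝ) + m := by rw [← e, hm]; push_cast; ring
      rw [← hMm] at h3
      push_cast at h3
      have hz : 1 / 2 ≤ ((i : ℝ) + 1) / M := by
        rw [div_le_div_iff₀ two_pos hM']
        have : ((j + d + 1 : ℕ) : ℝ) ≤ ((2 * (i + 1) : ℕ) : ℝ) := by exact_mod_cast (by omega)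
        rw [e] at this
        push_cast at this ⊢
        linarith
      have h4 : (((i : ℝ) + 1) / M) ^ (i + 1) * 2 ^ m ≤ 1 := by
        rw [div_pow, div_mul_eq_mul_div, div_le_one (by positivity)]; linarith
      have h5 : (2 : ℝ) ^ d * (7 / 8) ^ d ≤ 2 ^ m := by
        calc (2 : ℝ) ^ d * (7 / 8) ^ d ≤ 2 ^ d * 1 := by
              gcongr; exact pow_le_one₀ (by norm_num) (by norm_num)
          _ ≤ 2 ^ m := by
              rw [mul_one]; exact pow_le_pow_right₀ (by norm_num) (by omega)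
      have h6 : 0 ≤ (((i : ℝ) + 1) / M) ^ i * 2 ^ m := by positivity
      have h7 : (((i : ℝ) + 1) / M) ^ i * 2 ^ m ≤ 2 := by
        rw [pow_succ] at h4; nlinarith
      calc (((i : ℝ) + 1) / M) ^ i * (2 ^ d * (7 / 8) ^ d) ≤ (((i : ℝ) + 1) / M) ^ i * 2 ^ m := by
            gcongr
        _ ≤ _ := by linarith
  have hx : (0 : ℝ) ≤ (11 / 14) ^ i := by positivity
  calc (c i * (1 / (7 * M)) ^ i) * (c j * (1 / (7 * M)) ^ j)
      ≤ (4 / 11 * ((11 / 14) ^ i * (((i : ℝ) + 1) / M) ^ i)) * (2 ^ d * (7 / 8) ^ d * T) :=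
        mul_le_mul h2 h1 (mul_nonneg (c_pos _).le (by positivity)) (by positivity)
    _ = 4 / 11 * (11 / 14) ^ i * T * ((((i : ℝ) + 1) / M) ^ i * (2 ^ d * (7 / 8) ^ d)) := by ring
    _ ≤ 4 / 11 * (11 / 14) ^ i * T * (4 * (((i : ℝ) + 1) / M)) := by gcongr
    _ = 16 / 11 / M * (((i : ℝ) + 1) * (11 / 14) ^ i) * T := by ring
    _ ≤ _ := by gcongr; norm_num

/-- the sum over the high pairs -/
lemma high_le (N : ℕ) :
    ∑ i ∈ range (N + 1), ∑ j ∈ Ico (N + 1 - i) (N + 1),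
      (c i * (1 / (7 * ((N : ℝ) + 1))) ^ i) * (c j * (1 / (7 * ((N : ℝ) + 1))) ^ j) ≤
      728 / ((N : ℝ) + 1) * (c N * (1 / (7 * ((N : ℝ) + 1))) ^ N) := by
  set T := c N * (1 / (7 * ((N : ℝ) + 1))) ^ N with hT
  have hT0 : 0 ≤ T := mul_nonneg (c_pos _).le (by positivity)
  set φ : ℕ → ℝ := fun i => ((i : ℝ) + 1) * (11 / 14) ^ i with hφ
  have hφ0 : ∀ i, 0 ≤ φ i := fun i => by simp only [hφ]; positivity
  have h1 : ∑ i ∈ range (N + 1), ∑ _j ∈ Ico (N + 1 - i) (N + 1), φ i ≤ 182 := by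
    refine le_trans (sum_le_sum fun i hi => ?_) (geo2 (N + 1))
    have := mem_range.1 hi
    rw [sum_const, Nat.card_Ico, show N + 1 - (N + 1 - i) = i by omega, nsmul_eq_mul]
    simp only [hφ]
    have : (0 : ℝ) ≤ ((i : ℝ) + 1) * (11 / 14) ^ i := by positivity
    nlinarith
  have h2 : ∑ i ∈ range (N + 1), ∑ j ∈ Ico (N + 1 - i) (N + 1), φ j =
      ∑ j ∈ range (N + 1), ∑ _i ∈ Ico (N + 1 - j) (N + 1), φ j := by
    refine sum_comm' fun i j => ?_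
    simp only [mem_range, mem_Ico]; omega
  calc _ ≤ ∑ i ∈ range (N + 1), ∑ j ∈ Ico (N + 1 - i) (N + 1),
        2 / ((N : ℝ) + 1) * (φ i + φ j) * T := by
        refine sum_le_sum fun i hi => sum_le_sum fun j hj => ?_
        have hi' := mem_range.1 hi
        have hj' := mem_Ico.1 hj
        rcases le_total i j with hij | hij
        · refine (pair_le hij (by omega) (by omega)).trans ?_
          have := hφ0 j
          gcongr
          simp only [hφ]; linarith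
        · rw [mul_comm]
          refine (pair_le hij (by omega) (by omega)).trans ?_
          have := hφ0 i
          gcongr
          simp only [hφ]; linarith
    _ = 2 / ((N : ℝ) + 1) * (∑ i ∈ range (N + 1), ∑ _j ∈ Ico (N + 1 - i) (N + 1), φ i +
        ∑ i ∈ range (N + 1), ∑ j ∈ Ico (N + 1 - i) (N + 1), φ j) * T := by
        simp only [← sum_add_distrib, mul_sum, sum_mul]
    _ ≤ 2 / ((N : ℝ) + 1) * (182 + 182) * T := by
        rw [h2]; gcongr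
    _ = _ := by ring

end Crest.Agent.N250.HJ
end

-- ▼ part N250/HJ/Dd
section

/-! # Row 250, end action: the residual of the truncated inner solution -/

namespace Crest.Agent.N250.HJ

open Finset

/-- residual of the inner equation -/
noncomputable def DD (N : ℕ) (w : ℂ) : ℂ := (1 - eN N w) ^ 2 + 4 * w * cN N w ^ 2 - 1

lemma kap_pos (N : ℕ) : 0 < kap N := by unfold kap; have := cc_pos N; positivity



lemma sq_split (f : ℕ → ℝ) (M : ℕ) (w : ℂ) :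
    (∑ k ∈ range M, (f k : ℂ) * w ^ k) ^ 2 =
      ∑ n ∈ range M, ((∑ k ∈ range (n + 1), f k * f (n - k) : ℝ) : ℂ) * w ^ n +
      ∑ i ∈ range M, ∑ j ∈ Ico (M - i) M, ((f i * f j : ℝ) : ℂ) * w ^ (i + j) := by
  have h1 : ∑ n ∈ range M, ((∑ k ∈ range (n + 1), f k * f (n - k) : ℝ) : ℂ) * w ^ n =
      ∑ n ∈ range M, ∑ k ∈ range (n + 1), ((f k * f (n - k) : ℝ) : ℂ) * w ^ (k + (n - k)) := by
    refine sum_congr rfl fun n _ => ?_
    rw [Complex.ofReal_sum, sum_mul]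
    refine sum_congr rfl fun k hk => ?_
    have := mem_range.1 hk
    rw [show k + (n - k) = n by omega]
  rw [h1, sum_range_diag_flip M (fun i j => ((f i * f j : ℝ) : ℂ) * w ^ (i + j)),
    ← sum_add_distrib, sq, sum_mul_sum]
  refine sum_congr rfl fun i _ => ?_
  rw [sum_range_add_sum_Ico _ (Nat.sub_le M i)]
  refine sum_congr rfl fun j _ => ?_
  push_cast; ring

lemma aa_succ (n : ℕ) : ∑ k ∈ range (n + 1 + 1), a k * a (n + 1 - k) = -4 * cc n := by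
  rw [sum_range_succ, sum_range_succ']
  simp only [Nat.sub_self, a_zero, Nat.sub_zero, Nat.add_sub_add_right]
  have := a_succ n
  linarith

lemma DD_eq (N : ℕ) (w : ℂ) : DD N w = 2 * kap N * w ^ (N + 1) +
    (∑ i ∈ range (N + 1), ∑ j ∈ Ico (N + 1 - i) (N + 1), ((a i * a j : ℝ) : ℂ) * w ^ (i + j) +
    4 * w * ∑ i ∈ range (N + 1), ∑ j ∈ Ico (N + 1 - i) (N + 1),
      ((c i * c j : ℝ) : ℂ) * w ^ (i + j)) := by
  have h1 : (1 - eN N w) ^ 2 = (∑ k ∈ range (N + 1), (a k : ℂ) * w ^ k) ^ 2 := by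
    rw [sum_range_succ']; unfold eN; simp only [a_zero]; push_cast; ring
  unfold DD cN
  rw [h1, sq_split a, sq_split c, sum_range_succ' _ N]
  simp only [aa_succ]
  have h2 : ∑ n ∈ range (N + 1), ((∑ k ∈ range (n + 1), c k * c (n - k) : ℝ) : ℂ) * w ^ n =
      ∑ n ∈ range N, (cc n : ℂ) * w ^ n + cc N * w ^ N := by
    rw [sum_range_succ]; rfl
  have h3 : ∑ k ∈ range N, ((-4 * cc k : ℝ) : ℂ) * w ^ (k + 1) =
      -(4 * w * ∑ n ∈ range N, (cc n : ℂ) * w ^ n) := by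
    rw [mul_sum, ← sum_neg_distrib]
    refine sum_congr rfl fun k _ => ?_
    push_cast; ring
  rw [h2, h3]
  simp only [kap, zero_add, range_one, sum_singleton, Nat.sub_self, a_zero, pow_zero]
  push_cast; ring

lemma norm_high_le {N : ℕ} {w : ℂ} (h : ‖w‖ ≤ 1 / (7 * ((N : ℝ) + 1))) (g : ℕ → ℕ → ℝ) (L : ℝ)
    (hL : 0 ≤ L) (hg : ∀ i j, i ≤ N → j ≤ N → N + 1 ≤ i + j → |g i j| ≤ L * (c i * c j)) :
    ‖∑ i ∈ range (N + 1), ∑ j ∈ Ico (N + 1 - i) (N + 1), ((g i j : ℝ) : ℂ) * w ^ (i + j)‖ *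
        (1 / (7 * ((N : ℝ) + 1))) ≤ L * (728 / ((N : ℝ) + 1) * c N * ‖w‖ ^ (N + 1)) := by
  set ρ0 : ℝ := 1 / (7 * ((N : ℝ) + 1)) with hρ0
  have hρ : 0 < ρ0 := by positivity
  have h1 : ‖∑ i ∈ range (N + 1), ∑ j ∈ Ico (N + 1 - i) (N + 1),
      ((g i j : ℝ) : ℂ) * w ^ (i + j)‖ * ρ0 ^ (N + 1) ≤
      L * ‖w‖ ^ (N + 1) * ∑ i ∈ range (N + 1), ∑ j ∈ Ico (N + 1 - i) (N + 1),
        (c i * ρ0 ^ i) * (c j * ρ0 ^ j) := by
    rw [mul_sum]
    refine le_trans (mul_le_mul_of_nonneg_right (norm_sum_le _ _) (by positivity)) ?_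
    rw [sum_mul]
    refine sum_le_sum fun i hi => ?_
    rw [mul_sum]
    refine le_trans (mul_le_mul_of_nonneg_right (norm_sum_le _ _) (by positivity)) ?_
    rw [sum_mul]
    refine sum_le_sum fun j hj => ?_
    have hi' := mem_range.1 hi
    have hj' := mem_Ico.1 hj
    obtain ⟨d, hd⟩ : ∃ d, i + j = N + 1 + d := ⟨i + j - (N + 1), by omega⟩
    have h2 := hg i j (by omega) (by omega) (by omega)
    have h3 : ‖w‖ ^ d ≤ ρ0 ^ d := pow_le_pow_left₀ (norm_nonneg _) h d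
    have h4 : ρ0 ^ i * ρ0 ^ j = ρ0 ^ (N + 1) * ρ0 ^ d := by rw [← pow_add, ← pow_add, hd]
    have h5 := c_pos i
    have h6 := c_pos j
    rw [norm_mul, norm_pow, Complex.norm_real, Real.norm_eq_abs, hd, pow_add]
    calc |g i j| * (‖w‖ ^ (N + 1) * ‖w‖ ^ d) * ρ0 ^ (N + 1)
        ≤ (L * (c i * c j)) * (‖w‖ ^ (N + 1) * ρ0 ^ d) * ρ0 ^ (N + 1) := by gcongr
      _ = L * ‖w‖ ^ (N + 1) * (c i * c j * (ρ0 ^ (N + 1) * ρ0 ^ d)) := by ring
      _ = _ := by rw [← h4]; ring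
  have h2 := high_le N
  rw [← hρ0] at h2
  have h3 := h1.trans (mul_le_mul_of_nonneg_left h2 (by positivity))
  have h4 : 0 < ρ0 ^ N := by positivity
  refine le_of_mul_le_mul_right ?_ h4
  calc _ = ‖∑ i ∈ range (N + 1), ∑ j ∈ Ico (N + 1 - i) (N + 1),
      ((g i j : ℝ) : ℂ) * w ^ (i + j)‖ * ρ0 ^ (N + 1) := by ring
    _ ≤ _ := h3
    _ = _ := by ring

/-- the residual is its leading term up to a relative error `O(1/N)` -/
theorem DD_lead {N : ℕ} (hN : 1 ≤ N) {w : ℂ} (h : ‖w‖ ≤ 1 / (7 * ((N : ℝ) + 1))) :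
    ‖DD N w - 2 * kap N * w ^ (N + 1)‖ ≤ 3276 / ((N : ℝ) + 1) * kap N * ‖w‖ ^ (N + 1) := by
  rw [DD_eq, add_sub_cancel_left]
  set ρ0 : ℝ := 1 / (7 * ((N : ℝ) + 1)) with hρ0
  have hρ : 0 < ρ0 := by positivity
  have hN' : (1 : ℝ) ≤ N := by exact_mod_cast hN
  have h1 := norm_high_le h (fun i j => a i * a j) (14 * ρ0) (by positivity) (by
    intro i j hi hj hij
    have hai := a_pos i (by omega)
    have haj := a_pos j (by omega)
    have hi1 : (1 : ℝ) ≤ i := by exact_mod_cast (by omega : 1 ≤ i)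
    have hj1 : (1 : ℝ) ≤ j := by exact_mod_cast (by omega : 1 ≤ j)
    have hij' : (N : ℝ) + 1 ≤ i + j := by exact_mod_cast hij
    rw [abs_of_pos (mul_pos hai haj)]
    have e : 14 * ρ0 * (c i * c j) =
        (2 * ((2 * (i : ℝ) - 1) * (2 * j - 1)) / ((N : ℝ) + 1)) * (a i * a j) := by
      simp only [c, hρ0]; field_simp; ring
    rw [e]
    refine le_mul_of_one_le_left (mul_pos hai haj).le ?_
    rw [le_div_iff₀ (by positivity)]
    nlinarith [mul_nonneg (sub_nonneg.2 hi1) (sub_nonneg.2 hj1)])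
  have h2 := norm_high_le h (fun i j => c i * c j) 1 zero_le_one (by
    intro i j _ _ _
    rw [abs_of_pos (mul_pos (c_pos i) (c_pos j)), one_mul])
  rw [← hρ0] at h1 h2
  set A := ∑ i ∈ range (N + 1), ∑ j ∈ Ico (N + 1 - i) (N + 1), ((a i * a j : ℝ) : ℂ) * w ^ (i + j)
  set B := ∑ i ∈ range (N + 1), ∑ j ∈ Ico (N + 1 - i) (N + 1), ((c i * c j : ℝ) : ℂ) * w ^ (i + j)
  set T := 728 / ((N : ℝ) + 1) * c N * ‖w‖ ^ (N + 1) with hT
  have h3 : ‖A‖ ≤ 14 * T := by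
    refine le_of_mul_le_mul_right ?_ hρ
    linarith
  have h4 : ‖4 * w * B‖ ≤ 4 * T := by
    rw [norm_mul, norm_mul, Complex.norm_ofNat]
    have : ‖w‖ * ‖B‖ ≤ ρ0 * ‖B‖ := by gcongr
    linarith
  have h5 : 4 * c N ≤ kap N := by have := two_c_le_cc hN; unfold kap; linarith
  have h6 : 4 * T ≤ 728 / ((N : ℝ) + 1) * kap N * ‖w‖ ^ (N + 1) := by
    calc 4 * T = 728 / ((N : ℝ) + 1) * (4 * c N) * ‖w‖ ^ (N + 1) := by rw [hT]; ring
      _ ≤ _ := by gcongr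
  calc ‖A + 4 * w * B‖ ≤ 14 * T + 4 * T := (norm_add_le _ _).trans (add_le_add h3 h4)
    _ = 9 / 2 * (4 * T) := by ring
    _ ≤ 9 / 2 * (728 / ((N : ℝ) + 1) * kap N * ‖w‖ ^ (N + 1)) := by gcongr
    _ = _ := by ring

end Crest.Agent.N250.HJ
end

-- ▼ part N250/HJ/Main

/-! # Row 250, end action: slope and Hamilton–Jacobi residual of the polynomial ansatz -/

namespace Crest.Agent.N250.HJ

/-- the threshold for `N` -/
def N0 : ℕ := 1000000

namespace Adm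

variable {N : ℕ} {X V : ℂ}

lemma hV0 (h : Adm N X V) : V ≠ 0 := by
  intro h0; have := h.hV; rw [h0] at this; simp at this

lemma y_eq (h : Adm N X V) : 1 / X ^ 2 = 2 * V * ww X V := by
  have := h.hX; have := h.hV0; unfold ww; field_simp

lemma y_le (h : Adm N X V) : ‖1 / X ^ 2‖ ≤ 8 * ‖ww X V‖ := by
  rw [h.y_eq, norm_mul, norm_mul, Complex.norm_ofNat]
  have := h.hV'
  have := norm_nonneg (ww X V)
  nlinarith

lemma w_small (h : Adm N X V) (hN : N0 ≤ N) : ‖ww X V‖ ≤ 1 / 7000000 := by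
  refine h.hw.trans (one_div_le_one_div_of_le (by norm_num) ?_)
  have : ((1000000 : ℕ) : ℝ) ≤ N := by exact_mod_cast hN
  push_cast at this; linarith

lemma tau_sub (h : Adm N X V) : ‖tau N X V - (1 - V)‖ ≤ 3864 * ‖ww X V‖ := by
  have e : tau N X V - (1 - V) = (cN N (ww X V) - 1) + V * eN N (ww X V) +
      V * (V - 3) * (1 / X ^ 2) := by unfold tau; ring
  have h1 := norm_cN_le h.hw
  have h2 := norm_eN_le h.hw
  have h3 := h.y_le
  have h4 := h.hV'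
  have h5 : ‖V - 3‖ ≤ 7 := (norm_sub_le _ _).trans (by rw [Complex.norm_ofNat]; linarith)
  rw [e]
  refine (norm_add₃_le).trans ?_
  rw [norm_mul, norm_mul, norm_mul]
  have h6 : ‖V‖ * ‖eN N (ww X V)‖ ≤ 4 * (728 * ‖ww X V‖) := by gcongr
  have h7 : ‖V‖ * ‖V - 3‖ * ‖1 / X ^ 2‖ ≤ 4 * 7 * (8 * ‖ww X V‖) := by gcongr
  linarith

lemma tau_le (h : Adm N X V) (hN : N0 ≤ N) : ‖tau N X V‖ ≤ 6 := by
  have h1 := h.tau_sub
  have h2 := h.w_small hN
  have h3 : ‖1 - V‖ ≤ 5 := (norm_sub_le _ _).trans (by rw [norm_one]; linarith [h.hV'])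
  have := norm_add_le (tau N X V - (1 - V)) (1 - V)
  rw [sub_add_cancel] at this
  linarith

lemma cs_sq (N : ℕ) (X V : ℂ) : cs N X V ^ 2 = 1 - 4 * ww X V * tau N X V ^ 2 := sqrt_sq _

lemma z_le (h : Adm N X V) (hN : N0 ≤ N) : ‖4 * ww X V * tau N X V ^ 2‖ ≤ 144 * ‖ww X V‖ := by
  rw [norm_mul, norm_mul, norm_pow, Complex.norm_ofNat]
  have h1 := h.tau_le hN
  calc 4 * ‖ww X V‖ * ‖tau N X V‖ ^ 2 ≤ 4 * ‖ww X V‖ * 6 ^ 2 := by gcongr
    _ = _ := by ring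

lemma cs_sub (h : Adm N X V) (hN : N0 ≤ N) : ‖cs N X V - 1‖ ≤ 144 * ‖ww X V‖ :=
  (sqrt_sub_one _).trans (h.z_le hN)

lemma le_cs (h : Adm N X V) (hN : N0 ≤ N) : 1 / 2 ≤ ‖cs N X V‖ := by
  have h1 := h.cs_sub hN
  have h2 := h.w_small hN
  have := norm_sub_le (cs N X V) (cs N X V - 1)
  rw [sub_sub_cancel, norm_one] at this
  linarith

lemma cs_ne (h : Adm N X V) (hN : N0 ≤ N) : cs N X V ≠ 0 := by
  intro h0; have := h.le_cs hN; rw [h0, norm_zero] at this; linarith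

lemma inv_cs_sub (h : Adm N X V) (hN : N0 ≤ N) : ‖1 / cs N X V - 1‖ ≤ 288 * ‖ww X V‖ := by
  have h0 := h.cs_ne hN
  have e : 1 / cs N X V - 1 = -(cs N X V - 1) / cs N X V := by field_simp; ring
  have h1 := h.le_cs hN
  have h2 := h.cs_sub hN
  rw [e, norm_div, norm_neg, div_le_iff₀ (by linarith)]
  nlinarith [norm_nonneg (ww X V)]

lemma nu_sub (h : Adm N X V) (hN : N0 ≤ N) : ‖nu N X V - 1‖ ≤ 800 * ‖ww X V‖ := by
  have e : nu N X V - 1 = -eN N (ww X V) + (-V + 2 * (1 - 2 * eN N (ww X V) -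
      (cN N (ww X V) - 1) - 3 * V * (1 / X ^ 2))) * (1 / X ^ 2) := by unfold nu; ring
  have h1 := norm_cN_le h.hw
  have h2 := norm_eN_le h.hw
  have h3 := h.y_le
  have h4 := h.hV'
  have h5 := h.w_small hN
  have h6 : ‖1 - 2 * eN N (ww X V) - (cN N (ww X V) - 1) - 3 * V * (1 / X ^ 2)‖ ≤ 2 := by
    refine (norm_sub_le _ _).trans ?_
    have a1 := norm_sub_le (1 - 2 * eN N (ww X V)) (cN N (ww X V) - 1)
    have a2 := norm_sub_le 1 (2 * eN N (ww X V))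
    have a3 : ‖V‖ * ‖1 / X ^ 2‖ ≤ 4 * (8 * ‖ww X V‖) := by gcongr
    rw [norm_mul, norm_one, Complex.norm_ofNat] at a2
    rw [norm_mul, norm_mul, Complex.norm_ofNat]
    nlinarith
  have h7 : ‖-V + 2 * (1 - 2 * eN N (ww X V) - (cN N (ww X V) - 1) - 3 * V * (1 / X ^ 2))‖ ≤ 8 := by
    refine (norm_add_le _ _).trans ?_
    rw [norm_neg, norm_mul, Complex.norm_ofNat]; linarith
  rw [e]
  refine (norm_add_le _ _).trans ?_
  rw [norm_neg, norm_mul]
  have h8 := mul_le_mul h7 h3 (norm_nonneg _) (by norm_num)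
  linarith [norm_nonneg (ww X V)]

/-- (c) the slope follows the slow manifold up to `O(w)` -/
theorem slope_sub (h : Adm N X V) (hN : N0 ≤ N) :
    ‖X * slope N X V - 2 * (V - 1)‖ ≤ 12000 * ‖ww X V‖ := by
  have h0 := h.cs_ne hN
  have hX := h.hX
  have e : X * slope N X V - 2 * (V - 1) = -2 * ((tau N X V - (1 - V)) +
      tau N X V * (1 / cs N X V - 1)) := by unfold slope; field_simp; ring
  have h1 := h.tau_sub
  have h2 := mul_le_mul (h.tau_le hN) (h.inv_cs_sub hN) (norm_nonneg _) (by norm_num)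
  have h3 := norm_add_le (tau N X V - (1 - V)) (tau N X V * (1 / cs N X V - 1))
  rw [norm_mul] at h3
  rw [e, norm_mul, norm_neg, Complex.norm_ofNat]
  nlinarith [norm_nonneg (ww X V)]

lemma Q_eq (h : Adm N X V) (hN : N0 ≤ N) :
    2 * V + slope N X V ^ 2 = (rr V / cs N X V) ^ 2 := by
  have h0 := h.cs_ne hN
  have hX := h.hX
  have hV := h.hV0
  have h1 := cs_sq N X V
  have h2 : ww X V * (2 * V * X ^ 2) = 1 := by unfold ww; field_simp
  rw [div_pow, rr_sq, slope]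
  field_simp
  linear_combination (X ^ 2 * V) * h1 - 2 * tau N X V ^ 2 * h2

/-- (b) the area element at the cut -/
theorem sqrt_Q (h : Adm N X V) (hN : N0 ≤ N) :
    (2 * V + slope N X V ^ 2) ^ (1 / 2 : ℂ) = rr V / cs N X V := by
  refine sqrt_eq (h.Q_eq hN).symm ?_
  have e : rr V / cs N X V = rr V + rr V * (1 / cs N X V - 1) := by ring
  have h1 := norm_rr_le h.hV
  have h2 := h.inv_cs_sub hN
  have h3 := h.w_small hN
  have h4 := Complex.abs_re_le_norm (rr V * (1 / cs N X V - 1))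
  have h5 : 0 < ‖rr V‖ := norm_pos_iff.2 (rr_ne h.hV0)
  rw [norm_mul] at h4
  have h6 : ‖rr V‖ * ‖1 / cs N X V - 1‖ ≤ ‖rr V‖ * (1 / 4) := by gcongr; linarith
  rw [e, Complex.add_re]
  have := neg_abs_le (rr V * (1 / cs N X V - 1)).re
  linarith


/-- (b) the momentum at the cut is `∂_V S` -/
theorem mom (h : Adm N X V) (hN : N0 ≤ N) :
    EE X V * slope N X V / (rr V / cs N X V) = -2 * EE X V * tau N X V / (X * rr V) := by
  have h0 := h.cs_ne hN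
  have hX := h.hX
  have hr := rr_ne h.hV0
  unfold slope; field_simp

/-- (b) `Lag - p Lag_p` at the cut -/
theorem ham (h : Adm N X V) (hN : N0 ≤ N) :
    EE X V * (rr V / cs N X V) - slope N X V * (EE X V * slope N X V / (rr V / cs N X V)) =
      EE X V * rr V * cs N X V := by
  have h0 := h.cs_ne hN
  have hr := rr_ne h.hV0
  have h1 := h.Q_eq hN
  have h2 : slope N X V ^ 2 = (rr V / cs N X V) ^ 2 - rr V ^ 2 := by
    rw [rr_sq]; linear_combination h1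
  have e : slope N X V * (EE X V * slope N X V / (rr V / cs N X V)) =
      EE X V * slope N X V ^ 2 / (rr V / cs N X V) := by ring
  rw [e, h2]; field_simp; ring

lemma q_eq (h : Adm N X V) : nu N X V ^ 2 - cs N X V ^ 2 = DD N (ww X V) + (1 / X ^ 2) *
    (8 * (1 - eN N (ww X V)) * (-eN N (ww X V) - (cN N (ww X V) - 1)) -
      2 * V * (1 - eN N (ww X V)) * eN N (ww X V) - 12 * V * (1 / X ^ 2) * (1 - eN N (ww X V)) +
      (1 / X ^ 2) * (-V + 2 * (2 * (1 - eN N (ww X V)) - cN N (ww X V)) - 6 * V * (1 / X ^ 2)) ^ 2 +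
      4 * ww X V * (V * (V - 3)) * (2 * (cN N (ww X V) - V * (1 - eN N (ww X V))) +
        (1 / X ^ 2) * (V * (V - 3)))) := by
  have h1 := h.y_eq
  rw [cs_sq]
  have e1 : nu N X V = (1 - eN N (ww X V)) - V * (1 / X ^ 2) +
      2 * (1 / X ^ 2) * (2 * (1 - eN N (ww X V)) - cN N (ww X V) - 3 * V * (1 / X ^ 2)) := by
    unfold nu; ring
  have e2 : tau N X V = cN N (ww X V) - V * (1 - eN N (ww X V)) + V * (V - 3) * (1 / X ^ 2) := by
    unfold tau; ring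
  rw [e1, e2, h1]; unfold DD; ring

lemma q_sub (h : Adm N X V) (hN : N0 ≤ N) :
    ‖nu N X V ^ 2 - cs N X V ^ 2 - DD N (ww X V)‖ ≤ 50000 * ‖ww X V‖ * ‖1 / X ^ 2‖ := by
  rw [h.q_eq, add_sub_cancel_left, norm_mul, mul_comm]
  refine mul_le_mul_of_nonneg_right ?_ (norm_nonneg _)
  have h1 := norm_cN_le h.hw
  have h2 := norm_eN_le h.hw
  have h3 := h.y_le
  have h4 := h.hV'
  have h5 := h.w_small hN
  have h6 : ‖V - 3‖ ≤ 7 := (norm_sub_le _ _).trans (by rw [Complex.norm_ofNat]; linarith)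
  generalize 1 / X ^ 2 = y at *
  generalize eN N (ww X V) = e at *
  generalize cN N (ww X V) = C at *
  generalize ww X V = w at *
  have hw := norm_nonneg w
  have g1 : ‖1 - e‖ ≤ 2 := (norm_sub_le _ _).trans (by rw [norm_one]; linarith)
  have g2 : ‖C‖ ≤ 2 := by
    have := norm_add_le (C - 1) 1
    rw [sub_add_cancel, norm_one] at this; linarith
  have g3 : ‖-e - (C - 1)‖ ≤ 1456 * ‖w‖ := (norm_sub_le _ _).trans (by rw [norm_neg]; linarith)
  have g4 : ‖V * (V - 3)‖ ≤ 28 := by rw [norm_mul]; nlinarith [norm_nonneg V, norm_nonneg (V - 3)]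
  have g5 : ‖y‖ ≤ 1 / 100 := by linarith
  have g6 : ‖-V + 2 * (2 * (1 - e) - C) - 6 * V * y‖ ≤ 17 := by
    refine (norm_sub_le _ _).trans ?_
    have a1 := norm_add_le (-V) (2 * (2 * (1 - e) - C))
    have a2 := norm_sub_le (2 * (1 - e)) C
    have a3 : ‖V‖ * ‖y‖ ≤ 4 * (1 / 100) := by gcongr
    simp only [norm_mul, norm_neg, Complex.norm_ofNat] at a1 a2 ⊢
    nlinarith
  have g7 : ‖2 * (C - V * (1 - e)) + y * (V * (V - 3))‖ ≤ 21 := by
    refine (norm_add_le _ _).trans ?_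
    have a1 := norm_sub_le C (V * (1 - e))
    have a2 : ‖V‖ * ‖1 - e‖ ≤ 4 * 2 := by gcongr
    have a3 : ‖y‖ * ‖V * (V - 3)‖ ≤ 1 / 100 * 28 := by gcongr
    rw [norm_mul] at a1
    rw [norm_mul, norm_mul y, Complex.norm_ofNat]
    linarith
  have t1 : ‖8 * (1 - e) * (-e - (C - 1))‖ ≤ 8 * 2 * (1456 * ‖w‖) := by
    rw [norm_mul, norm_mul, Complex.norm_ofNat]; gcongr
  have t2 : ‖2 * V * (1 - e) * e‖ ≤ 2 * 4 * 2 * (728 * ‖w‖) := by
    rw [norm_mul, norm_mul, norm_mul, Complex.norm_ofNat]; gcongr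
  have t3 : ‖12 * V * y * (1 - e)‖ ≤ 12 * 4 * (8 * ‖w‖) * 2 := by
    rw [norm_mul, norm_mul, norm_mul, Complex.norm_ofNat]; gcongr
  have t4 : ‖y * (-V + 2 * (2 * (1 - e) - C) - 6 * V * y) ^ 2‖ ≤ (8 * ‖w‖) * 17 ^ 2 := by
    rw [norm_mul, norm_pow]; gcongr
  have t5 : ‖4 * w * (V * (V - 3)) * (2 * (C - V * (1 - e)) + y * (V * (V - 3)))‖ ≤
      4 * ‖w‖ * 28 * 21 := by
    rw [norm_mul, norm_mul, norm_mul, Complex.norm_ofNat]; gcongr
  refine (norm_add₃_le).trans ?_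
  have b1 := norm_sub_le (8 * (1 - e) * (-e - (C - 1)) - 2 * V * (1 - e) * e)
    (12 * V * y * (1 - e))
  have b2 := norm_sub_le (8 * (1 - e) * (-e - (C - 1))) (2 * V * (1 - e) * e)
  linarith

lemma res_core (h : Adm N X V) (hN : N0 ≤ N) :
    ‖nu N X V - cs N X V - kap N * ww X V ^ (N + 1)‖ ≤
      3500 * (kap N * ‖ww X V‖ ^ (N + 1) / ((N : ℝ) + 1)) + 50000 * (‖ww X V‖ / ‖X‖ ^ 2) := by
  have h1 := h.nu_sub hN
  have h2 := h.cs_sub hN
  have h3 := h.w_small hN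
  have h4 := h.q_sub hN
  have h5 := DD_lead (N := N) (le_trans (by decide) hN) h.hw
  have h6 : ‖nu N X V + cs N X V - 2‖ ≤ 944 * ‖ww X V‖ := by
    have := norm_add_le (nu N X V - 1) (cs N X V - 1)
    rw [show nu N X V - 1 + (cs N X V - 1) = nu N X V + cs N X V - 2 by ring] at this
    linarith
  have h7 : 1 ≤ ‖nu N X V + cs N X V‖ := by
    have := norm_sub_le (nu N X V + cs N X V) (nu N X V + cs N X V - 2)
    rw [sub_sub_cancel, Complex.norm_ofNat] at this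
    linarith
  have e : (nu N X V - cs N X V - kap N * ww X V ^ (N + 1)) * (nu N X V + cs N X V) =
      (nu N X V ^ 2 - cs N X V ^ 2 - DD N (ww X V)) + (DD N (ww X V) - 2 * kap N * ww X V ^ (N + 1)) -
        kap N * ww X V ^ (N + 1) * (nu N X V + cs N X V - 2) := by ring
  have hk := kap_pos N
  have h8 : ‖(kap N : ℂ) * ww X V ^ (N + 1) * (nu N X V + cs N X V - 2)‖ ≤
      135 * (kap N * ‖ww X V‖ ^ (N + 1) / ((N : ℝ) + 1)) := by
    rw [norm_mul, norm_mul, norm_pow, Complex.norm_real, Real.norm_of_nonneg hk.le]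
    have a1 : 944 * ‖ww X V‖ ≤ 135 / ((N : ℝ) + 1) := by
      calc 944 * ‖ww X V‖ ≤ 944 * (1 / (7 * ((N : ℝ) + 1))) := by gcongr; exact h.hw
        _ = (944 / 7) / ((N : ℝ) + 1) := by field_simp
        _ ≤ _ := by gcongr; norm_num
    calc kap N * ‖ww X V‖ ^ (N + 1) * ‖nu N X V + cs N X V - 2‖
        ≤ kap N * ‖ww X V‖ ^ (N + 1) * (135 / ((N : ℝ) + 1)) := by gcongr; exact h6.trans a1
      _ = _ := by ring
  have h9 := congrArg norm e
  rw [norm_mul] at h9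
  have h10 := norm_sub_le ((nu N X V ^ 2 - cs N X V ^ 2 - DD N (ww X V)) +
    (DD N (ww X V) - 2 * kap N * ww X V ^ (N + 1)))
    (kap N * ww X V ^ (N + 1) * (nu N X V + cs N X V - 2))
  have h11 := norm_add_le (nu N X V ^ 2 - cs N X V ^ 2 - DD N (ww X V))
    (DD N (ww X V) - 2 * kap N * ww X V ^ (N + 1))
  have h12 : 50000 * ‖ww X V‖ * ‖1 / X ^ 2‖ = 50000 * (‖ww X V‖ / ‖X‖ ^ 2) := by
    rw [norm_div, norm_one, norm_pow]; ring
  have h13 : 3276 / ((N : ℝ) + 1) * kap N * ‖ww X V‖ ^ (N + 1) =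
      3276 * (kap N * ‖ww X V‖ ^ (N + 1) / ((N : ℝ) + 1)) := by ring
  have h14 : 0 ≤ kap N * ‖ww X V‖ ^ (N + 1) / ((N : ℝ) + 1) := by positivity
  have h15 := le_mul_of_one_le_right
    (norm_nonneg (nu N X V - cs N X V - kap N * ww X V ^ (N + 1))) h7
  linarith


/-- the slope is holomorphic -/
theorem differentiableAt_slope (h : Adm N X V) (hN : N0 ≤ N) :
    DifferentiableAt ℂ (fun p : ℂ × ℂ => slope N p.1 p.2) (X, V) := by
  have hX := h.hX
  have h0 := differentiableAt_ww hX h.hV0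
  have h1 : DifferentiableAt ℂ (fun p : ℂ × ℂ => eN N (ww p.1 p.2)) (X, V) :=
    (differentiable_eN N _).comp _ h0
  have h2 : DifferentiableAt ℂ (fun p : ℂ × ℂ => cN N (ww p.1 p.2)) (X, V) :=
    (differentiable_cN N _).comp _ h0
  have h4 : DifferentiableAt ℂ (fun p : ℂ × ℂ => p.1 ^ 2) (X, V) := by fun_prop
  have h5 : DifferentiableAt ℂ (fun p : ℂ × ℂ => (p.1 ^ 2)⁻¹) (X, V) := h4.inv (by simp [hX])
  have h6 : DifferentiableAt ℂ (fun p : ℂ × ℂ => p.2 ^ 2 - 3 * p.2) (X, V) := by fun_prop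
  have h7 : DifferentiableAt ℂ (fun p : ℂ × ℂ => tau N p.1 p.2) (X, V) := by
    unfold tau
    simp only [div_eq_mul_inv]
    exact (h2.sub (differentiableAt_snd.mul (h1.const_sub _))).add (h6.mul h5)
  have h8 : DifferentiableAt ℂ (fun p : ℂ × ℂ => cs N p.1 p.2) (X, V) := by
    unfold cs
    refine DifferentiableAt.cpow (((h0.const_mul _).mul (h7.pow 2)).const_sub _)
      (differentiableAt_const _) (Or.inl ?_)
    have a1 := h.z_le hN
    have a2 := h.w_small hN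
    have a3 := Complex.re_le_norm (4 * ww X V * tau N X V ^ 2)
    simp only [Complex.sub_re, Complex.one_re]
    linarith
  unfold slope
  simp only [div_eq_mul_inv]
  exact (h7.const_mul _).mul ((differentiableAt_fst.mul h8).inv (mul_ne_zero hX (h.cs_ne hN)))

end Adm

end Crest.Agent.N250.HJ
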